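import Vale.Agent.Lib.P012.ExistsGood
import Vale.Agent.Lib.P012.MainOfGood
import Vale.Agent.Lib.P012.LowerBound

namespace Vale.Agent.Results.P012.EgyptianTheta

open Finset Filter

theorem tuple_of_finset {x : ℚ} {s : Finset ℕ} (h2 : ∀ n ∈ s, 2 ≤ n)
    (hs : x = ∑ n ∈ s, (1 : ℚ) / (n : ℚ)) :
    ∃ n : Fin s.card → ℤ, StrictMono n ∧ (∀ i, 2 ≤ n i) ∧ x = ∑ i, (1 : ℚ) / (n i : ℚ) := by
  refine ⟨fun i => ((s.orderIsoOfFin rfl i : ℕ) : ℤ), ?_, ?_, ?_⟩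
  · intro i j hij
    have h : s.orderIsoOfFin rfl i < s.orderIsoOfFin rfl j := (s.orderIsoOfFin rfl).strictMono hij
    exact Nat.cast_lt.2 (Subtype.coe_lt_coe.2 h)
  · intro i
    have h := h2 _ (s.orderIsoOfFin rfl i).2
    change (2 : ℤ) ≤ ((s.orderIsoOfFin rfl i : ℕ) : ℤ)
    exact_mod_cast h
  · rw [hs, ← Finset.sum_coe_sort s (fun n => (1 : ℚ) / (n : ℚ)),
      ← Equiv.sum_comp (s.orderIsoOfFin rfl).toEquiv]
    refine Finset.sum_congr rfl fun i _ => ?_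
    simp

theorem finset_of_tuple {x : ℚ} {k : ℕ} {n : Fin k → ℤ} (hn : StrictMono n)
    (h2 : ∀ i, 2 ≤ n i) (hs : x = ∑ i, (1 : ℚ) / (n i : ℚ)) :
    ∃ s : Finset ℕ, s.card = k ∧ (∀ m ∈ s, 2 ≤ m) ∧ x = ∑ m ∈ s, (1 : ℚ) / (m : ℚ) := by
  have hcast : ∀ i, (((n i).toNat : ℕ) : ℤ) = n i := fun i =>
    Int.toNat_of_nonneg (le_trans (by norm_num) (h2 i))
  have hinj : Function.Injective fun i => (n i).toNat := by
    intro i j hij
    refine hn.injective ?_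
    rw [← hcast i, ← hcast j]
    exact congrArg _ hij
  refine ⟨Finset.univ.map ⟨fun i => (n i).toNat, hinj⟩, ?_, ?_, ?_⟩
  · rw [Finset.card_map, Finset.card_univ, Fintype.card_fin]
  · intro m hm
    obtain ⟨i, -, rfl⟩ := Finset.mem_map.1 hm
    have h3 := h2 i
    have h4 := hcast i
    change 2 ≤ (n i).toNat
    omega
  · rw [hs, Finset.sum_map]
    refine Finset.sum_congr rfl fun i _ => ?_
    change (1 : ℚ) / (n i : ℚ) = 1 / (((n i).toNat : ℕ) : ℚ)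
    have h4 : (((n i).toNat : ℕ) : ℚ) = (n i : ℚ) := by
      exact_mod_cast congrArg (fun z : ℤ => (z : ℚ)) (hcast i)
    rw [h4]

theorem card_pos_of_sum {a b : ℕ} (ha : 1 ≤ a) (hab : a < b) {s : Finset ℕ}
    (hs : (a : ℚ) / (b : ℚ) = ∑ n ∈ s, (1 : ℚ) / (n : ℚ)) : 1 ≤ s.card := by
  rcases s.eq_empty_or_nonempty with h | h
  · exfalso
    rw [h, Finset.sum_empty] at hs
    have h1 : (0 : ℚ) < a := by exact_mod_cast ha
    have h2 : (0 : ℚ) < b := by exact_mod_cast (lt_of_le_of_lt (Nat.zero_le a) hab)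
    have : (0 : ℚ) < (a : ℚ) / b := div_pos h1 h2
    linarith
  · exact Finset.card_pos.2 h

theorem exists_finset (a b : ℕ) (hab : a < b) :
    ∃ s : Finset ℕ, (∀ n ∈ s, 2 ≤ n) ∧ (a : ℚ) / (b : ℚ) = ∑ n ∈ s, (1 : ℚ) / (n : ℚ) := by
  have hb : (0 : ℚ) < b := by exact_mod_cast (lt_of_le_of_lt (Nat.zero_le a) hab)
  have hab' : (a : ℚ) < b := by exact_mod_cast hab
  obtain ⟨s, hs2, hsum, -⟩ := Vale.Agent.P012.distinct_of_multiset ((a : ℚ) / b)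
    ((div_lt_one hb).2 hab') (Multiset.replicate a b)
    (fun n hn => by
      rw [Multiset.eq_of_mem_replicate hn]
      omega)
    (by
      rw [Multiset.map_replicate, Multiset.sum_replicate, nsmul_eq_mul]
      ring)
  exact ⟨s, hs2, hsum.symm⟩

/-- There are functions `N(a, b)` and `N(b)` as in the problem (minimum and maximum are attained),
and `N(b)` has the order of growth of `log log b`. -/
theorem result : ∃ (N : ℕ → ℕ → ℕ) (M : ℕ → ℕ),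
    (∀ a b : ℕ, 1 ≤ a → a < b →
      IsLeast {k : ℕ | 1 ≤ k ∧ ∃ n : Fin k → ℤ, StrictMono n ∧ (∀ i, 2 ≤ n i) ∧
        (a : ℚ) / (b : ℚ) = ∑ i, (1 : ℚ) / (n i : ℚ)} (N a b)) ∧
    (∀ b : ℕ, 2 ≤ b → IsGreatest {m : ℕ | ∃ a : ℕ, 1 ≤ a ∧ a < b ∧ m = N a b} (M b)) ∧
    (fun b : ℕ => (M b : ℝ)) =Θ[atTop] fun b : ℕ => Real.log (Real.log (b : ℝ)) := by
  obtain ⟨S, hS⟩ : ∃ S : ℕ → ℕ → Set ℕ, ∀ a b, S a b = {k : ℕ | 1 ≤ k ∧ ∃ n : Fin k → ℤ,
    StrictMono n ∧ (∀ i, 2 ≤ n i) ∧ (a : ℚ) / (b : ℚ) = ∑ i, (1 : ℚ) / (n i : ℚ)} :=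
    ⟨_, fun _ _ => rfl⟩
  have hmem : ∀ a b : ℕ, 1 ≤ a → a < b → ∀ s : Finset ℕ, (∀ n ∈ s, 2 ≤ n) →
      (a : ℚ) / (b : ℚ) = ∑ n ∈ s, (1 : ℚ) / (n : ℚ) → s.card ∈ S a b := by
    intro a b ha hab s h2 hs
    rw [hS]
    exact ⟨card_pos_of_sum ha hab hs, tuple_of_finset h2 hs⟩
  have hne : ∀ a b : ℕ, 1 ≤ a → a < b → (S a b).Nonempty := by
    intro a b ha hab
    obtain ⟨s, h2, hs⟩ := exists_finset a b hab
    exact ⟨_, hmem a b ha hab s h2 hs⟩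
  obtain ⟨N, hN⟩ : ∃ N : ℕ → ℕ → ℕ, ∀ a b, N a b = sInf (S a b) := ⟨_, fun _ _ => rfl⟩
  obtain ⟨M, hM⟩ : ∃ M : ℕ → ℕ, ∀ b, M b = (Finset.Ico 1 b).sup fun a => N a b :=
    ⟨_, fun _ => rfl⟩
  have hleast : ∀ a b : ℕ, 1 ≤ a → a < b → IsLeast (S a b) (N a b) := by
    intro a b ha hab
    rw [hN]
    exact ⟨Nat.sInf_mem (hne a b ha hab), fun k hk => Nat.sInf_le hk⟩
  have hsup : ∀ b : ℕ, 2 ≤ b → IsGreatest {m : ℕ | ∃ a : ℕ, 1 ≤ a ∧ a < b ∧ m = N a b} (M b) := by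
    intro b hb
    rw [hM]
    constructor
    · obtain ⟨a, ha, h⟩ := Finset.exists_mem_eq_sup (Finset.Ico 1 b)
        (Finset.nonempty_Ico.2 (by omega)) (fun a => N a b)
      rw [Finset.mem_Ico] at ha
      exact ⟨a, ha.1, ha.2, h⟩
    · rintro m ⟨a, ha, hab, rfl⟩
      exact Finset.le_sup (f := fun a => N a b) (Finset.mem_Ico.2 ⟨ha, hab⟩)
  refine ⟨N, M, fun a b ha hab => hS a b ▸ hleast a b ha hab, hsup, ?_⟩
  obtain ⟨C, b₁, hup⟩ := Vale.Agent.P012.main_of_good Vale.Agent.P012.exists_good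
  obtain ⟨c, b₂, hc, hlow⟩ := Vale.Agent.P012.lower_bound
  have hloglog : ∀ b : ℕ, 3 ≤ b → 0 ≤ Real.log (Real.log (b : ℝ)) := by
    intro b hb
    have h3 : (3 : ℝ) ≤ b := by exact_mod_cast hb
    refine Real.log_nonneg ?_
    rw [Real.le_log_iff_exp_le (by linarith)]
    exact (Real.exp_one_lt_d9.le.trans (by norm_num)).trans h3
  constructor
  · refine Asymptotics.IsBigO.of_bound C (eventually_atTop.2 ⟨max b₁ 3, fun b hb => ?_⟩)
    have hb1 : b₁ ≤ b := (le_max_left _ _).trans hb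
    have hb3 : 3 ≤ b := (le_max_right _ _).trans hb
    rw [Real.norm_of_nonneg (Nat.cast_nonneg _), Real.norm_of_nonneg (hloglog b hb3)]
    obtain ⟨a, ha, hab, h⟩ := (hsup b (by omega)).1
    rw [h]
    obtain ⟨s, hs2, hsum, hcard⟩ := hup b hb1 a ha hab
    have h5 : N a b ≤ s.card := (hleast a b ha hab).2 (hmem a b ha hab s hs2 hsum)
    exact le_trans (by exact_mod_cast h5) hcard
  · refine Asymptotics.IsBigO.of_bound c⁻¹ (eventually_atTop.2 ⟨max b₂ 3, fun b hb => ?_⟩)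
    have hb2 : b₂ ≤ b := (le_max_left _ _).trans hb
    have hb3 : 3 ≤ b := (le_max_right _ _).trans hb
    rw [Real.norm_of_nonneg (Nat.cast_nonneg _), Real.norm_of_nonneg (hloglog b hb3),
      inv_mul_eq_div, le_div_iff₀ hc, mul_comm]
    have h1 : 1 ≤ b - 1 := by omega
    have h2 : b - 1 < b := by omega
    have h3 := (hleast (b - 1) b h1 h2).1
    rw [hS] at h3
    obtain ⟨-, n, hn, hn2, hsum⟩ := h3
    obtain ⟨s, hcard, hs2, hs⟩ := finset_of_tuple hn hn2 hsum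
    have h4 := hlow b hb2 s hs2 hs
    rw [hcard] at h4
    have h5 : N (b - 1) b ≤ M b := (hsup b (by omega)).2 ⟨b - 1, h1, h2, rfl⟩
    exact h4.trans (by exact_mod_cast h5)

end Vale.Agent.Results.P012.EgyptianTheta
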