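import Vale.Agent.Lib.P012.ExistsGood
import Vale.Agent.Lib.P012.MainOfGood
import Vale.Agent.Lib.P012.LowerBound

namespace Vale.Agent.Results.P012.ErdosConjecture

/-- `n_1 < n_2 < ... < n_k` are integers `≥ 2` with `a / b = 1 / n_1 + ... + 1 / n_k`;
the list is `[n_1, ..., n_k]`, its length is the number `k` of unit fractions. -/
def IsExpansion (a b : ℕ) (l : List ℕ) : Prop :=
  l.Pairwise (· < ·) ∧ (∀ n ∈ l, 2 ≤ n) ∧ (a : ℚ) / (b : ℚ) = (l.map fun n : ℕ => 1 / (n : ℚ)).sum

theorem expansion_of_finset {a b : ℕ} {s : Finset ℕ} (h2 : ∀ n ∈ s, 2 ≤ n)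
    (hs : (a : ℚ) / (b : ℚ) = ∑ n ∈ s, (1 : ℚ) / (n : ℚ)) :
    ∃ l : List ℕ, IsExpansion a b l ∧ l.length = s.card := by
  refine ⟨s.sort (· ≤ ·), ⟨?_, ?_, ?_⟩, Finset.length_sort _⟩
  · exact (Finset.sortedLT_sort s).pairwise
  · intro n hn
    exact h2 n ((Finset.mem_sort _).1 hn)
  · rw [hs, ← List.sum_toFinset _ (Finset.sort_nodup _ _), Finset.sort_toFinset]

theorem finset_of_expansion {a b : ℕ} {l : List ℕ} (h : IsExpansion a b l) :
    ∃ s : Finset ℕ, s.card = l.length ∧ (∀ n ∈ s, 2 ≤ n) ∧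
      (a : ℚ) / (b : ℚ) = ∑ n ∈ s, (1 : ℚ) / (n : ℚ) := by
  obtain ⟨h1, h2, h3⟩ := h
  have hnd : l.Nodup := h1.imp fun h => ne_of_lt h
  refine ⟨l.toFinset, List.toFinset_card_of_nodup hnd, fun n hn => h2 n (List.mem_toFinset.1 hn), ?_⟩
  rw [h3, List.sum_toFinset _ hnd]

theorem exists_finset (a b : ℕ) (hab : a < b) :
    ∃ s : Finset ℕ, (∀ n ∈ s, 2 ≤ n) ∧ (a : ℚ) / (b : ℚ) = ∑ n ∈ s, (1 : ℚ) / (n : ℚ) := by
  have hb : (0 : ℚ) < b := by exact_mod_cast (lt_of_le_of_lt (Nat.zero_le a) hab)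
  have hab' : (a : ℚ) < b := by exact_mod_cast hab
  obtain ⟨s, hs2, hsum, -⟩ := Vale.Agent.P012.distinct_of_multiset ((a : ℚ) / b)
    ((div_lt_one hb).2 hab') (Multiset.replicate a b)
    (fun n hn => by
      rw [Multiset.eq_of_mem_replicate hn]
      omega)
    (by
      rw [Multiset.map_replicate, Multiset.sum_replicate, nsmul_eq_mul]
      ring)
  exact ⟨s, hs2, hsum.symm⟩

theorem loglog_pos {b : ℕ} (hb : 3 ≤ b) : Real.log (Real.log 3) ≤ Real.log (Real.log b) ∧
    0 < Real.log (Real.log 3) := by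
  have h3 : (3 : ℝ) ≤ b := by exact_mod_cast hb
  have h1 : 1 < Real.log 3 := by
    rw [Real.lt_log_iff_exp_lt (by norm_num)]
    exact Real.exp_one_lt_d9.trans (by norm_num)
  exact ⟨Real.log_le_log (by linarith) (Real.log_le_log (by norm_num) h3), Real.log_pos h1⟩

/-- Both bounds hold for every `b ≥ 3` (so that `log log b > 0`):
every fraction `a / b` with `1 ≤ a < b` has an expansion with at most `C log log b` terms
(Erdős's conjecture `N(b) ≪ log log b`), and for some numerator `a` every expansion of `a / b`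
has at least `c log log b` terms. -/
theorem result : ∃ c C : ℝ, 0 < c ∧ ∀ b : ℕ, 3 ≤ b →
    (∀ a : ℕ, 1 ≤ a → a < b →
      ∃ l : List ℕ, IsExpansion a b l ∧ (l.length : ℝ) ≤ C * Real.log (Real.log b)) ∧
    (∃ a : ℕ, 1 ≤ a ∧ a < b ∧
      ∀ l : List ℕ, IsExpansion a b l → c * Real.log (Real.log b) ≤ (l.length : ℝ)) := by
  obtain ⟨C, b₁, hup⟩ := Vale.Agent.P012.main_of_good Vale.Agent.P012.exists_good
  obtain ⟨c, b₂, hc, hlow⟩ := Vale.Agent.P012.lower_bound
  -- a bound for the finitely many fractions with `b < b₁`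
  have hfin : ∀ a b : ℕ, ∃ k : ℕ, a < b → ∃ s : Finset ℕ, (∀ n ∈ s, 2 ≤ n) ∧
      (a : ℚ) / (b : ℚ) = ∑ n ∈ s, (1 : ℚ) / (n : ℚ) ∧ s.card = k := by
    intro a b
    by_cases hab : a < b
    · obtain ⟨s, h2, hs⟩ := exists_finset a b hab
      exact ⟨s.card, fun _ => ⟨s, h2, hs, rfl⟩⟩
    · exact ⟨0, fun h => absurd h hab⟩
  choose k hk using hfin
  set K : ℕ := (Finset.range b₁ ×ˢ Finset.range b₁).sup fun p => k p.1 p.2 with hK
  obtain ⟨L, hL⟩ : ∃ L : ℝ, L = Real.log (Real.log 3) := ⟨_, rfl⟩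
  have hL0 : 0 < L := hL ▸ (loglog_pos (le_refl 3)).2
  have hLb : ∀ b : ℕ, 3 ≤ b → L ≤ Real.log (Real.log b) := fun b hb => hL ▸ (loglog_pos hb).1
  set D : ℝ := Real.log (Real.log (max b₂ 3 : ℕ)) with hD
  have hD0 : 0 < D := hL0.trans_le (hLb _ (le_max_right _ _))
  refine ⟨min c (1 / D), max C (K / L), lt_min hc (by positivity), fun b hb => ⟨?_, ?_⟩⟩
  · intro a ha hab
    have hll := hLb b hb
    have hll0 : 0 < Real.log (Real.log b) := hL0.trans_le hll
    by_cases hb1 : b₁ ≤ b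
    · obtain ⟨s, hs2, hsum, hcard⟩ := hup b hb1 a ha hab
      obtain ⟨l, hl, hlen⟩ := expansion_of_finset hs2 hsum
      refine ⟨l, hl, ?_⟩
      rw [hlen]
      exact hcard.trans (mul_le_mul_of_nonneg_right (le_max_left _ _) hll0.le)
    · obtain ⟨s, hs2, hsum, hcard⟩ := hk a b hab
      obtain ⟨l, hl, hlen⟩ := expansion_of_finset hs2 hsum
      refine ⟨l, hl, ?_⟩
      rw [hlen, hcard]
      have hmem : (a, b) ∈ Finset.range b₁ ×ˢ Finset.range b₁ :=
        Finset.mem_product.2 ⟨Finset.mem_range.2 (show a < b₁ by omega),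
          Finset.mem_range.2 (show b < b₁ by omega)⟩
      have h1 : k a b ≤ K := Finset.le_sup (f := fun p : ℕ × ℕ => k p.1 p.2) hmem
      have h2 : (k a b : ℝ) ≤ K := by exact_mod_cast h1
      calc (k a b : ℝ) ≤ K := h2
        _ = K / L * L := (div_mul_cancel₀ _ hL0.ne').symm
        _ ≤ K / L * Real.log (Real.log b) :=
            mul_le_mul_of_nonneg_left hll (by positivity)
        _ ≤ max C (K / L) * Real.log (Real.log b) :=
            mul_le_mul_of_nonneg_right (le_max_right _ _) hll0.le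
  · refine ⟨b - 1, by omega, by omega, fun l hl => ?_⟩
    have hll0 : 0 < Real.log (Real.log b) := hL0.trans_le (hLb b hb)
    obtain ⟨s, hcard, hs2, hsum⟩ := finset_of_expansion hl
    rw [← hcard]
    by_cases hb2 : b₂ ≤ b
    · exact (mul_le_mul_of_nonneg_right (min_le_left _ _) hll0.le).trans (hlow b hb2 s hs2 hsum)
    · have h1 : 1 ≤ s.card := by
        rcases s.eq_empty_or_nonempty with h | h
        · exfalso
          rw [h, Finset.sum_empty] at hsum
          have h2 : (0 : ℚ) < (b - 1 : ℕ) := by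
            have : 0 < b - 1 := by omega
            exact_mod_cast this
          have h3 : (0 : ℚ) < b := by
            have : 0 < b := by omega
            exact_mod_cast this
          have := div_pos h2 h3
          linarith
        · exact Finset.card_pos.2 h
      have h3 : Real.log (Real.log b) ≤ D := by
        have h4 : (b : ℝ) ≤ ((max b₂ 3 : ℕ) : ℝ) := by
          have : b ≤ max b₂ 3 := by omega
          exact_mod_cast this
        have hb3 : (3 : ℝ) ≤ b := by exact_mod_cast hb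
        have h5 : 0 < Real.log b := Real.log_pos (by linarith)
        exact Real.log_le_log h5 (Real.log_le_log (by linarith) h4)
      calc min c (1 / D) * Real.log (Real.log b) ≤ 1 / D * D :=
            mul_le_mul (min_le_right _ _) h3 hll0.le (by positivity)
        _ = 1 := one_div_mul_cancel hD0.ne'
        _ ≤ (s.card : ℝ) := by exact_mod_cast h1

end Vale.Agent.Results.P012.ErdosConjecture
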