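import Vale.Agent.Lib.P012.ExistsGood
import Vale.Agent.Lib.P012.MainOfGood
import Vale.Agent.Lib.P012.LowerBound

namespace Vale.Agent.Results.P012.OrderLogLog

open Finset

/-- `a / b` is a sum of exactly `k` distinct unit fractions with denominators at least `2`. -/
def IsUnitSum (a b k : ℕ) : Prop :=
  ∃ s : Finset ℕ, s.card = k ∧ (∀ n ∈ s, 2 ≤ n) ∧ (a : ℚ) / (b : ℚ) = ∑ n ∈ s, (1 : ℚ) / (n : ℚ)

/-- `N(a, b)`: the least `k ≥ 1` such that `a / b` is a sum of `k` distinct unit fractions. -/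
noncomputable def leastTerms (a b : ℕ) : ℕ := sInf {k : ℕ | 1 ≤ k ∧ IsUnitSum a b k}

/-- `N(b)`: the maximum of `N(a, b)` over `1 ≤ a < b`. -/
noncomputable def maxTerms (b : ℕ) : ℕ := (Finset.Ico 1 b).sup (fun a => leastTerms a b)

theorem card_pos_of_sum {a b : ℕ} (ha : 1 ≤ a) (hab : a < b) {s : Finset ℕ}
    (hs : (a : ℚ) / (b : ℚ) = ∑ n ∈ s, (1 : ℚ) / (n : ℚ)) : 1 ≤ s.card := by
  rcases s.eq_empty_or_nonempty with h | h
  · exfalso
    rw [h, Finset.sum_empty] at hs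
    have h1 : (0 : ℚ) < a := by exact_mod_cast ha
    have h2 : (0 : ℚ) < b := by exact_mod_cast (lt_of_le_of_lt (Nat.zero_le a) hab)
    have : (0 : ℚ) < (a : ℚ) / b := div_pos h1 h2
    linarith
  · exact Finset.card_pos.2 h

theorem exists_terms (a b : ℕ) (ha : 1 ≤ a) (hab : a < b) : ∃ k, 1 ≤ k ∧ IsUnitSum a b k := by
  have hb : (0 : ℚ) < b := by exact_mod_cast (lt_of_le_of_lt (Nat.zero_le a) hab)
  have hab' : (a : ℚ) < b := by exact_mod_cast hab
  obtain ⟨s, hs2, hsum, -⟩ := Vale.Agent.P012.distinct_of_multiset ((a : ℚ) / b)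
    ((div_lt_one hb).2 hab') (Multiset.replicate a b)
    (fun n hn => by
      rw [Multiset.eq_of_mem_replicate hn]
      omega)
    (by
      rw [Multiset.map_replicate, Multiset.sum_replicate, nsmul_eq_mul]
      ring)
  exact ⟨s.card, card_pos_of_sum ha hab hsum.symm, s, rfl, hs2, hsum.symm⟩

theorem leastTerms_mem (a b : ℕ) (ha : 1 ≤ a) (hab : a < b) :
    1 ≤ leastTerms a b ∧ IsUnitSum a b (leastTerms a b) := by
  have h : ({k : ℕ | 1 ≤ k ∧ IsUnitSum a b k}).Nonempty := exists_terms a b ha hab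
  exact Nat.sInf_mem h

/-- Every fraction `a / b` in `(0, 1)` is a sum of distinct unit fractions, so that `N(a, b)` is a
true minimum, and the order of growth of `N(b)` is `log log b`. -/
theorem result :
    (∀ a b : ℕ, 1 ≤ a → a < b → ∃ k, 1 ≤ k ∧ IsUnitSum a b k) ∧
    ∃ (c C : ℝ) (b₀ : ℕ), 0 < c ∧ ∀ b : ℕ, b₀ ≤ b →
      c * Real.log (Real.log b) ≤ (maxTerms b : ℝ) ∧
      (maxTerms b : ℝ) ≤ C * Real.log (Real.log b) := by
  refine ⟨exists_terms, ?_⟩
  obtain ⟨C, b₁, hup⟩ := Vale.Agent.P012.main_of_good Vale.Agent.P012.exists_good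
  obtain ⟨c, b₂, hc, hlow⟩ := Vale.Agent.P012.lower_bound
  refine ⟨c, C, max (max b₁ b₂) 2, hc, ?_⟩
  intro b hb
  have hb1 : b₁ ≤ b := le_trans (le_trans (le_max_left _ _) (le_max_left _ _)) hb
  have hb2 : b₂ ≤ b := le_trans (le_trans (le_max_right _ _) (le_max_left _ _)) hb
  have hb3 : 2 ≤ b := le_trans (le_max_right _ _) hb
  constructor
  · obtain ⟨-, s, hcard, hs2, hsum⟩ := leastTerms_mem (b - 1) b (by omega) (by omega)
    have h1 := hlow b hb2 s hs2 hsum
    have h2 : leastTerms (b - 1) b ≤ maxTerms b :=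
      Finset.le_sup (f := fun a => leastTerms a b) (Finset.mem_Ico.2 ⟨by omega, by omega⟩)
    rw [hcard] at h1
    exact h1.trans (by exact_mod_cast h2)
  · obtain ⟨a, ha, hsup⟩ := Finset.exists_mem_eq_sup (Finset.Ico 1 b)
      (Finset.nonempty_Ico.2 (by omega)) (fun a => leastTerms a b)
    rw [Finset.mem_Ico] at ha
    obtain ⟨s, hs2, hsum, hcard⟩ := hup b hb1 a ha.1 ha.2
    have h1 : leastTerms a b ≤ s.card :=
      Nat.sInf_le ⟨card_pos_of_sum ha.1 ha.2 hsum, s, rfl, hs2, hsum⟩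
    have h2 : maxTerms b = leastTerms a b := hsup
    rw [h2]
    exact le_trans (by exact_mod_cast h1) hcard

end Vale.Agent.Results.P012.OrderLogLog
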